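import Vale.Agent.P192.R2.H503.ConfThm
import Vale.Agent.P192.R2.H503.Final
import Vale.Agent.P192.H124.InfExplicit
import Vale.Agent.P192.H826.RelPoly

/-!
# P192: finitely generated periodic groups of almost automorphisms

The class of groups `G` such that every homomorphism from a finitely presented periodic group to
`G` has finite image is closed under passing from a group of automorphisms of the tree of words to
the group of all bijections of the space of infinite words which are given, on finitely many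
cylinders, by a change of prefix followed by an element of the group. The depth of the cylinders is
uniformly bounded in every finitely generated periodic group of such bijections; for `C^1`
bijections of the `p`-adic integers this gives that finitely generated periodic groups are finite.
-/

namespace Vale.Agent.P192.H503

open Vale.Agent.P192

/-- **Finitely generated periodic groups of almost automorphisms.** `FPB G` says that every
homomorphism from a finitely presented periodic group to `G` has finite image, `Bur G` the same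
for finitely generated periodic groups, `Beg v ξ` that the infinite word `ξ` begins with `v`,
`Sec g v f` that `f` is the section of `g` at the word `v`. -/
theorem partB :
    -- (1) conformal `C^1` bijections over the `p`-adic numbers
    (∀ (p : ℕ) [Fact p.Prime] (V : Type) [NormedAddCommGroup V] [NormedSpace ℚ_[p] V]
      [IsUltrametricDist V] [FiniteDimensional ℚ_[p] V] (U : Set V), IsOpen U → IsCompact U →
      ∀ (Γ : Type) [Group Γ], Group.FG Γ → (∀ x : Γ, IsOfFinOrder x) →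
      ∀ ρ : Γ →* Equiv.Perm U, (∀ (g : Γ) (x : U), ∃ (D : V →ₗ[ℚ_[p]] V) (c : ℝ),
        0 < c ∧ (∀ v, ‖D v‖ = c * ‖v‖) ∧ ∀ ε : ℝ, 0 < ε → ∃ δ : ℝ, 0 < δ ∧ ∀ y z : U,
          ‖(y : V) - x‖ < δ → ‖(z : V) - x‖ < δ →
            ‖((ρ g y : V) - ρ g z) - D ((y : V) - z)‖ ≤ ε * ‖(y : V) - z‖) →
      Finite ρ.range) ∧
    -- (2) uniformity for a decreasing sequence of partitions
    (∀ (Ω : Type) (E : ℕ → Setoid Ω), (∀ n x y, E (n + 1) x y → E n x y) →
      (∀ n, Finite (Quotient (E n))) → (∀ x y, (∀ n, E n x y) → x = y) →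
      (∀ n x, ∃ y, E n x y ∧ y ≠ x) →
      ∀ (Γ : Type) [Group Γ], Group.FG Γ → (∀ x : Γ, IsOfFinOrder x) →
      ∀ ρ : Γ →* Equiv.Perm Ω,
      (∀ g, ∃ n, ∀ x, ∃ m, ∀ y z k, E n x y →
        (E (n + k) y z ↔ E (m + k) (ρ g y) (ρ g z))) →
      (∃ (r : ℕ) (N : Subgroup Γ), N.FiniteIndex ∧ ∀ g ∈ N, ∀ x, E r x (ρ g x) ∧
        ∀ k y, r ≤ k → (E k x y ↔ E k (ρ g x) (ρ g y))) ∧
      ∀ g, ρ g ≠ 1 → ∃ K : Subgroup Γ, K.Normal ∧ K.FiniteIndex ∧ g ∉ K) ∧
    -- (3) the group of almost automorphisms with sections in `A`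
    (∀ (X : Type) [Finite X] (A : Subgroup (Equiv.Perm (List X))),
      (∀ a ∈ A, ∀ w, (a w).length = w.length) → (∀ a ∈ A, ∀ v, ∃ k ∈ A, Sec a v k) →
      ∃ V : Subgroup (Equiv.Perm (ℕ → X)), (FPB A → FPB V) ∧ (Bur A → Bur V) ∧
        ∀ g, g ∈ V ↔ ∃ n, ∀ v : List X, v.length = n → ∃ u : List X, ∃ a ∈ A,
          ∀ (ξ : ℕ → X) (w : List X), Beg (v ++ w) ξ ↔ Beg (u ++ a w) (g ξ)) ∧
    -- (4) sections with countably many singular rays, in particular of polynomial activity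
    (∀ (X : Type) [Finite X] (H : Subgroup (Equiv.Perm (List X))), FPB H →
      (∀ h ∈ H, ∀ v, ∃ k ∈ H, Sec h v k) →
      (∀ h ∈ H, ∀ ξ : ℕ → X, {f | ∃ n x, x ≠ ξ n ∧ Sec h (pre ξ n ++ [x]) f}.Finite) →
      ∃ V : Subgroup (Equiv.Perm (ℕ → X)), FPB V ∧
        (∀ g, g ∈ V ↔ ∃ n, ∀ v : List X, v.length = n → ∃ (u : List X)
          (a : Equiv.Perm (List X)), (∀ (ξ : ℕ → X) (w : List X),
            Beg (v ++ w) ξ ↔ Beg (u ++ a w) (g ξ)) ∧
          (∀ w, (a w).length = w.length) ∧ (∀ v w, a v <+: a (v ++ w)) ∧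
          (∀ ξ : ℕ → X, {f | ∃ n x, x ≠ ξ n ∧ Sec a (pre ξ n ++ [x]) f}.Finite) ∧
          {ξ : ℕ → X | ∀ n, ¬ ∃ k ∈ H, Sec a (pre ξ n) k}.Countable) ∧
        ∀ g : Equiv.Perm (ℕ → X), (∃ n, ∀ v : List X, v.length = n → ∃ (u : List X)
          (a : Equiv.Perm (List X)), (∀ (ξ : ℕ → X) (w : List X),
            Beg (v ++ w) ξ ↔ Beg (u ++ a w) (g ξ)) ∧
          (∀ w, (a w).length = w.length) ∧ (∀ v w, a v <+: a (v ++ w)) ∧
          {f | ∃ v, Sec a v f}.Finite ∧
          (∃ C k : ℕ, ∀ n, {v : List X | v.length = n ∧ ¬ ∃ h ∈ H, Sec a v h}.ncard ≤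
            C * (n + 1) ^ k)) → g ∈ V) := by
  refine ⟨?_, ?_, ?_, ?_⟩
  · intro p _ V _ _ _ _ U hU hc Γ _ hfg hper ρ hC
    exact conf_main hU hc hfg hper ρ hC
  · intro Ω E hdec hfin hsep hperf Γ _ hfg hper ρ hloc
    obtain ⟨r, N, hN, h⟩ := eq_main E hdec hfin hsep hperf hfg hper ρ hloc
    exact ⟨⟨r, N, hN, h⟩, fun g hg => eq_residual E hdec hfin hsep ρ hN h g hg⟩
  · intro X _ A hA1 hA2
    obtain ⟨V, hV⟩ := exists_V A hA1 hA2
    exact ⟨V, V_fpb A hA1 hA2 V (fun g hg => (hV g).1 hg),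
      V_bur A hA1 hA2 V (fun g hg => (hV g).1 hg), hV⟩
  · intro X _ H k4 k2 k3
    obtain ⟨C, hC, hc, hm⟩ := count_short X H k2 k3 k4
    have hA1 : ∀ a ∈ C, ∀ w, (a w).length = w.length := fun a ha => ((hm a).1 ha).1
    obtain ⟨V, hV⟩ := exists_V C hA1 hc
    have hV2 : ∀ g, g ∈ V ↔ ∃ n, ∀ v : List X, v.length = n → ∃ (u : List X)
          (a : Equiv.Perm (List X)), (∀ (ξ : ℕ → X) (w : List X),
            Beg (v ++ w) ξ ↔ Beg (u ++ a w) (g ξ)) ∧
          (∀ w, (a w).length = w.length) ∧ (∀ v w, a v <+: a (v ++ w)) ∧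
          (∀ ξ : ℕ → X, {f | ∃ n x, x ≠ ξ n ∧ Sec a (pre ξ n ++ [x]) f}.Finite) ∧
          {ξ : ℕ → X | ∀ n, ¬ ∃ k ∈ H, Sec a (pre ξ n) k}.Countable := by
      intro g
      rw [hV g]
      constructor
      · rintro ⟨n, hn⟩
        refine ⟨n, fun v hv => ?_⟩
        obtain ⟨u, a, ha, h⟩ := hn v hv
        exact ⟨u, a, h, (hm a).1 ha⟩
      · rintro ⟨n, hn⟩
        refine ⟨n, fun v hv => ?_⟩
        obtain ⟨u, a, h, ha⟩ := hn v hv
        exact ⟨u, a, (hm a).2 ha, h⟩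
    refine ⟨V, V_fpb C hA1 hc V (fun g hg => (hV g).1 hg) hC, hV2, ?_⟩
    rintro g ⟨n, hn⟩
    rw [hV g]
    refine ⟨n, fun v hv => ?_⟩
    obtain ⟨u, a, h, g1, g2, g3, g4⟩ := hn v hv
    exact ⟨u, a, (hm a).2 ⟨g1, g2, relpoly_short X H a g1 g2 g3 g4⟩, h⟩

end Vale.Agent.P192.H503
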